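import Vale.Agent.P102.SF.C.Static3
import Mathlib.Data.Fin.Tuple.Sort

set_option linter.unusedSectionVars false

namespace Vale.Agent.P102.SF

open MeasureTheory Filter Topology Vale.Agent.P102.Ext
open scoped ComplexConjugate

variable {X G : Type*} [MeasurableSpace X] [MeasurableSpace G]

/-- A sequence of time vectors with all gaps tending to infinity, after reordering, inside a set
which belongs to an ultrafilter along which all gaps tend to infinity. -/
theorem exists_seq_of_spread {ι : Type*} [Fintype ι] (r : Ultrafilter (ι → ℤ))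
    (hr : ∀ i j, i ≠ j → Tendsto (fun t : ι → ℤ => t i - t j) r cofinite)
    (P : (ι → ℤ) → Prop) (hP : ∀ᶠ t in (r : Filter (ι → ℤ)), P t) :
    ∃ (σ : Fin (Fintype.card ι) ≃ ι) (t : ℕ → ι → ℤ), (∀ n, P (t n)) ∧
      Gaps (fun n j => t n (σ j)) := by
  classical
  have hgap : ∀ n : ℕ, ∀ᶠ t in (r : Filter (ι → ℤ)), ∀ i j, i ≠ j → (n : ℤ) ≤ |t i - t j| := by
    intro n
    rw [eventually_all]; intro i
    rw [eventually_all]; intro j
    by_cases hij : i = j
    · exact Eventually.of_forall fun t h => absurd hij h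
    · have hfin : ({z : ℤ | (n : ℤ) ≤ |z|}ᶜ).Finite := by
        refine (Set.finite_Icc (-(n : ℤ)) (n : ℤ)).subset fun z hz => ?_
        simp only [Set.mem_compl_iff, Set.mem_ofPred_eq, not_le] at hz
        rw [abs_lt] at hz
        exact ⟨hz.1.le, hz.2.le⟩
      have h1 : {z : ℤ | (n : ℤ) ≤ |z|} ∈ cofinite := hfin
      have h2 := (hr i j hij).eventually h1
      filter_upwards [h2] with t ht _
      exact ht
  -- the order of the times
  have hord : ∀ᶠ t in (r : Filter (ι → ℤ)), ∃ σ : Fin (Fintype.card ι) ≃ ι,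
      StrictMono fun j => t (σ j) := by
    filter_upwards [hgap 1] with t ht
    have hinj : Function.Injective t := by
      intro i j hij
      by_contra hne
      have := ht i j hne
      rw [hij, sub_self, abs_zero] at this
      norm_num at this
    let e : Fin (Fintype.card ι) ≃ ι := (Fintype.equivFin ι).symm
    refine ⟨(Tuple.sort (fun j => t (e j))).trans e, ?_⟩
    have hm : Monotone ((fun j => t (e j)) ∘ Tuple.sort (fun j => t (e j))) :=
      Tuple.monotone_sort _
    exact hm.strictMono_of_injective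
      ((hinj.comp e.injective).comp (Tuple.sort (fun j => t (e j))).injective)
  obtain ⟨σ, hσ⟩ : ∃ σ : Fin (Fintype.card ι) ≃ ι, ∀ᶠ t in (r : Filter (ι → ℤ)),
      StrictMono fun j => t (σ j) := by
    have h1 : (⋃ σ ∈ (Set.univ : Set (Fin (Fintype.card ι) ≃ ι)),
        {t : ι → ℤ | StrictMono fun j => t (σ j)}) ∈ (r : Ultrafilter (ι → ℤ)) := by
      filter_upwards [hord] with t ht
      obtain ⟨σ, h⟩ := ht
      simp only [Set.mem_univ, Set.iUnion_true, Set.mem_iUnion]
      exact ⟨σ, h⟩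
    rw [Ultrafilter.finite_biUnion_mem_iff Set.finite_univ] at h1
    obtain ⟨σ, -, h⟩ := h1
    exact ⟨σ, h⟩
  have hex : ∀ n : ℕ, ∃ t : ι → ℤ, P t ∧ (∀ i j, i ≠ j → (n : ℤ) ≤ |t i - t j|) ∧
      StrictMono fun j => t (σ j) := by
    intro n
    exact ((hP.and ((hgap n).and hσ)).exists)
  choose t ht1 ht2 ht3 using hex
  refine ⟨σ, t, ht1, fun i j hij => ?_⟩
  refine tendsto_atTop_mono (fun n => ?_) tendsto_natCast_atTop_atTop
  have h1 := ht2 n (σ j) (σ i) (fun h => hij.ne (σ.injective h).symm)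
  have h2 : t n (σ i) < t n (σ j) := ht3 n hij
  rw [abs_of_pos (by linarith)] at h1
  exact h1

namespace StaticC

variable {K : Set (X → ℂ)} {A : Type*} [AddCommGroup A] {ω : Measure G} [IsProbabilityMeasure ω]
  {T : X ≃ᵐ X} {x : G → X} (S : StaticC K ω T x A)
  {μ : Measure X} [IsProbabilityMeasure μ] (hT : MeasurePreserving T μ μ)
  (hx : MeasurePreserving x ω μ)

include hT hx in
/-- **The static theorem along an ultrafilter of time vectors.** -/
theorem corr_spread (hK : Cls T K) (hmix : Ext.MixingOfOrder μ T 2) {ι : Type*} [Fintype ι]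
    (r : Ultrafilter (ι → ℤ))
    (hr : ∀ i j, i ≠ j → Tendsto (fun t : ι → ℤ => t i - t j) r cofinite)
    (f : ι → X → ℂ) (hfK : ∀ i, f i ∈ K) (hs : ∀ i, S.Spanned (f i)) (l : ι)
    (h0 : ∫ y, f l y ∂μ = 0) :
    Tendsto (fun t : ι → ℤ => ∫ y, ∏ i, f i (iter T (t i) y) ∂μ) r (𝓝 0) := by
  classical
  by_contra hcon
  rw [Metric.tendsto_nhds] at hcon
  push Not at hcon
  obtain ⟨δ, hδ, hfr⟩ := hcon
  have hev : ∀ᶠ t in (r : Filter (ι → ℤ)), δ ≤ ‖∫ y, ∏ i, f i (iter T (t i) y) ∂μ‖ := by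
    filter_upwards [hfr] with t ht
    rw [dist_zero_right] at ht
    exact ht
  obtain ⟨σ, t, ht, hgap⟩ := exists_seq_of_spread r hr _ hev
  have h2 := S.corr_tendsto_zero hT hx hK hmix (fun n j => t n (σ j)) hgap (fun j => f (σ j))
    (fun j => hfK _) (fun j => hs _) (σ.symm l) (by simpa using h0)
  rw [Metric.tendsto_atTop] at h2
  obtain ⟨N, hN⟩ := h2 δ hδ
  have h3 := hN N le_rfl
  rw [dist_zero_right] at h3
  have h4 : ∫ y, ∏ j, f (σ j) (iter T (t N (σ j)) y) ∂μ =
      ∫ y, ∏ i, f i (iter T (t N i) y) ∂μ := by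
    congr 1; funext y
    exact Equiv.prod_comp σ (fun i => f i (iter T (t N i) y))
  rw [h4] at h3
  exact absurd (ht N) (not_le.2 h3)

end StaticC

end Vale.Agent.P102.SF
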