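import Vale.Agent.P102.SF.C.Static2
import Vale.Agent.P102.SF.Static3

set_option linter.unusedSectionVars false

namespace Vale.Agent.P102.SF

open MeasureTheory Filter Topology Vale.Agent.P102.Ext
open scoped ComplexConjugate

variable {X G : Type*} [MeasurableSpace X] [MeasurableSpace G]

namespace StaticC

variable {K : Set (X → ℂ)} {A : Type*} [AddCommGroup A] {ω : Measure G} [IsProbabilityMeasure ω]
  {T : X ≃ᵐ X} {x : G → X} (S : StaticC K ω T x A)
  {μ : Measure X} [IsProbabilityMeasure μ] (hT : MeasurePreserving T μ μ)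
  (hx : MeasurePreserving x ω μ)

/-- the truncation of the function `f ∘ T ^ m ∘ x` to the characters `β ^ m u`, `u ∈ E` -/
noncomputable def tr (f : X → ℂ) (E : Finset A) (m : ℤ) (g : G) : ℂ :=
  ∑ u ∈ E, coef ω x S.e (fun y => f (iter T m y)) ((S.β ^ m) u) * S.e ((S.β ^ m) u) g

theorem tr_bm (f : X → ℂ) (E : Finset A) (m : ℤ) : BM (S.tr f E m) :=
  BM.sum _ fun _ _ => (BM.const _).mul (S.bm _)

theorem coef_norm_le (f : X → ℂ) {C : ℝ} (hC : ∀ y, ‖f y‖ ≤ C) (u : A) :
    ‖coef ω x S.e f u‖ ≤ C := by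
  unfold coef
  have h := norm_integral_le_of_norm_le_const (μ := ω) (C := C)
    (f := fun g => f (x g) * conj (S.e u g)) (Eventually.of_forall fun g => by
      rw [norm_mul, RCLike.norm_conj, S.norm, mul_one]; exact hC _)
  simpa using h

theorem tr_norm_le (f : X → ℂ) {C : ℝ} (hC : ∀ y, ‖f y‖ ≤ C) (E : Finset A) (m : ℤ) (g : G) :
    ‖S.tr f E m g‖ ≤ E.card * C := by
  unfold tr
  refine (norm_sum_le _ _).trans ?_
  have h : ∀ u ∈ E, ‖coef ω x S.e (fun y => f (iter T m y)) ((S.β ^ m) u) *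
      S.e ((S.β ^ m) u) g‖ ≤ C := by
    intro u _
    rw [norm_mul, S.norm, mul_one]
    exact S.coef_norm_le _ (fun y => hC _) _
  refine (Finset.sum_le_sum h).trans ?_
  rw [Finset.sum_const, nsmul_eq_mul]

include hT hx in
/-- successive truncation of the factors of a correlation -/
theorem trunc_all (hK : Cls T K) {k : ℕ} (t : ℕ → Fin k → ℤ) (f : Fin k → X → ℂ)
    (hfK : ∀ i, f i ∈ K)
    (hs : ∀ i, S.Spanned (f i)) (δ : ℝ) (hδ : 0 < δ)
    (hbig : ∀ n, δ ≤ ‖∫ g, ∏ i, f i (iter T (t n i) (x g)) ∂ω‖) (s : Finset (Fin k)) :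
    ∃ (E : Fin k → Finset A) (δ' : ℝ), 0 < δ' ∧ ∀ n, δ' ≤
      ‖∫ g, (∏ i ∈ s, S.tr (f i) (E i) (t n i) g) *
        ∏ i ∈ sᶜ, f i (iter T (t n i) (x g)) ∂ω‖ := by
  classical
  choose hfm C hC using fun i => hK.bm (f i) (hfK i)
  induction s using Finset.induction_on with
  | empty =>
    refine ⟨fun _ => ∅, δ, hδ, fun n => ?_⟩
    simpa using hbig n
  | insert a s ha ih =>
    obtain ⟨E, δ', hδ', hE⟩ := ih
    obtain ⟨R, hR⟩ : ∃ R : ℕ → G → ℂ, ∀ n g, R n g = (∏ i ∈ s, S.tr (f i) (E i) (t n i) g) *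
        ∏ i ∈ (insert a s)ᶜ, f i (iter T (t n i) (x g)) := ⟨_, fun _ _ => rfl⟩
    have hRbm : ∀ n, BM (R n) := by
      intro n
      have h1 : BM (fun g => (∏ i ∈ s, S.tr (f i) (E i) (t n i) g) *
        ∏ i ∈ (insert a s)ᶜ, f i (iter T (t n i) (x g))) :=
        (BM.prod s fun i _ => S.tr_bm _ _ _).mul (BM.prod _ fun i _ =>
          (BM.comp ⟨hfm i, C i, hC i⟩ ((measurable_iter T _).comp hx.measurable)))
      have h2 : R n = fun g => (∏ i ∈ s, S.tr (f i) (E i) (t n i) g) *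
        ∏ i ∈ (insert a s)ᶜ, f i (iter T (t n i) (x g)) := funext (hR n)
      rw [h2]; exact h1
    obtain ⟨D, hD0, hRb⟩ : ∃ D : ℝ, 0 ≤ D ∧ ∀ n g, ‖R n g‖ ≤ D := by
      refine ⟨|(∏ i ∈ s, ((E i).card * C i)) * ∏ i ∈ (insert a s)ᶜ, C i|, abs_nonneg _,
        fun n g => ?_⟩
      rw [hR, norm_mul]
      refine le_trans ?_ (le_abs_self _)
      have h1 := norm_prod_le_of_bdd s (fun i => S.tr (f i) (E i) (t n i) g)
        (fun i => (E i).card * C i) (fun i _ => S.tr_norm_le _ (hC i) _ _ _)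
      have h2 := norm_prod_le_of_bdd (insert a s)ᶜ (fun i => f i (iter T (t n i) (x g)))
        (fun i => C i) (fun i _ => hC i _)
      exact mul_le_mul h1 h2 (norm_nonneg _) ((norm_nonneg _).trans h1)
    have hεpos : 0 < (δ' / (2 * (D + 1))) ^ 2 := by positivity
    obtain ⟨Ea, hEa⟩ := S.trunc hT hx hK (f a) (hfK a) (hs a) _ hεpos
    refine ⟨Function.update E a Ea, δ' / 2, by positivity, fun n => ?_⟩
    have hUb : BM fun g => f a (iter T (t n a) (x g)) - S.tr (f a) Ea (t n a) g :=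
      (BM.comp ⟨hfm a, C a, hC a⟩
      ((measurable_iter T _).comp hx.measurable)).sub (S.tr_bm _ _ _)
    have hsmall := Static.small_change (ω := ω) _ (R n) hUb (hRbm n) D hD0 (hRb n) δ' hδ' (hEa (t n a))
    have hI1 : ∀ g, (∏ i ∈ s, S.tr (f i) (E i) (t n i) g) *
        ∏ i ∈ sᶜ, f i (iter T (t n i) (x g)) = f a (iter T (t n a) (x g)) * R n g := by
      intro g
      rw [hR, Finset.compl_insert, ← Finset.mul_prod_erase sᶜ _ (Finset.mem_compl.2 ha)]
      ring
    have hI2 : ∀ g, (∏ i ∈ insert a s, S.tr (f i) (Function.update E a Ea i) (t n i) g) *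
        ∏ i ∈ (insert a s)ᶜ, f i (iter T (t n i) (x g)) = S.tr (f a) Ea (t n a) g * R n g := by
      intro g
      have hupd : ∏ i ∈ s, S.tr (f i) (Function.update E a Ea i) (t n i) g =
          ∏ i ∈ s, S.tr (f i) (E i) (t n i) g := by
        refine Finset.prod_congr rfl fun i hi => ?_
        rw [Function.update_of_ne (ne_of_mem_of_not_mem hi ha)]
      rw [hR, Finset.prod_insert ha, hupd, Function.update_self]
      ring
    have hdiff : (∫ g, f a (iter T (t n a) (x g)) * R n g ∂ω) -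
        ∫ g, S.tr (f a) Ea (t n a) g * R n g ∂ω =
        ∫ g, (f a (iter T (t n a) (x g)) - S.tr (f a) Ea (t n a) g) * R n g ∂ω := by
      rw [← integral_sub]
      · congr 1; funext g; ring
      · exact ((BM.comp ⟨hfm a, C a, hC a⟩
          ((measurable_iter T _).comp hx.measurable)).mul (hRbm n)).integrable
      · exact ((S.tr_bm _ _ _).mul (hRbm n)).integrable
    have h1 := hE n
    simp_rw [hI1] at h1
    simp_rw [hI2]
    have h2 := norm_sub_norm_le (∫ g, f a (iter T (t n a) (x g)) * R n g ∂ω)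
      (∫ g, S.tr (f a) Ea (t n a) g * R n g ∂ω)
    rw [hdiff] at h2
    linarith

/-- a vanishing sum of characters for each time of a large correlation -/
theorem exists_rel (hK : Cls T K) {k : ℕ} (t : Fin k → ℤ) (f : Fin k → X → ℂ)
    (hfK : ∀ i, f i ∈ K)
    (E : Fin k → Finset A) (h : ∫ g, ∏ i, S.tr (f i) (E i) (t i) g ∂ω ≠ 0) :
    ∃ v ∈ Fintype.piFinset E, ∑ i, (S.β ^ (t i)) (v i) = 0 ∧
      ∀ i, coef ω x S.e (f i) (v i) ≠ 0 := by
  classical
  have h1 : ∃ v ∈ Fintype.piFinset E, ∫ g, ∏ i, (coef ω x S.e (fun y => f i (iter T (t i) y))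
      ((S.β ^ (t i)) (v i)) * S.e ((S.β ^ (t i)) (v i)) g) ∂ω ≠ 0 := by
    by_contra hcon
    push Not at hcon
    apply h
    have : (fun g => ∏ i, S.tr (f i) (E i) (t i) g) = fun g => ∑ v ∈ Fintype.piFinset E,
        ∏ i, (coef ω x S.e (fun y => f i (iter T (t i) y))
          ((S.β ^ (t i)) (v i)) * S.e ((S.β ^ (t i)) (v i)) g) := by
      funext g
      unfold tr
      rw [Finset.prod_univ_sum]
    rw [this, integral_finsetSum]
    · exact Finset.sum_eq_zero hcon
    · intro v _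
      exact (BM.prod _ fun i _ => (BM.const _).mul (S.bm _)).integrable
  obtain ⟨v, hv, hne⟩ := h1
  refine ⟨v, hv, ?_, ?_⟩
  · by_contra hsum
    apply hne
    obtain ⟨c, hc, hce⟩ := S.e_sum Finset.univ (fun i => (S.β ^ (t i)) (v i))
    have hc0 : c ≠ 0 := by intro h; rw [h, norm_zero] at hc; exact zero_ne_one hc
    have h2 := S.orth _ hsum
    rw [integral_congr_ae hce, integral_const_mul] at h2
    have h3 := (mul_eq_zero.1 h2).resolve_left hc0
    simp_rw [Finset.prod_mul_distrib]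
    rw [integral_const_mul, h3, mul_zero]
  · intro i hi
    apply hne
    have h2 : coef ω x S.e (fun y => f i (iter T (t i) y)) ((S.β ^ (t i)) (v i)) = 0 := by
      have := S.coef_iter hK (f i) (hfK i) (t i) (v i)
      rw [hi, norm_zero, norm_eq_zero] at this
      exact this
    have h3 : ∀ g, ∏ i, (coef ω x S.e (fun y => f i (iter T (t i) y))
        ((S.β ^ (t i)) (v i)) * S.e ((S.β ^ (t i)) (v i)) g) = 0 := by
      intro g
      apply Finset.prod_eq_zero (Finset.mem_univ i)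
      rw [h2, zero_mul]
    simp_rw [h3]
    simp

include hT hx in
/-- **The static theorem.** If `T` is mixing (of order 2), the correlations of any order of
functions in the span of the unimodular functions, one of them with integral zero, tend to zero. -/
theorem corr_tendsto_zero (hK : Cls T K) (hmix : Ext.MixingOfOrder μ T 2) {k : ℕ}
    (t : ℕ → Fin k → ℤ)
    (ht : Gaps t) (f : Fin k → X → ℂ) (hfK : ∀ i, f i ∈ K) (hs : ∀ i, S.Spanned (f i))
    (l : Fin k) (h0 : ∫ y, f l y ∂μ = 0) :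
    Tendsto (fun n => ∫ y, ∏ i, f i (iter T (t n i) y) ∂μ) atTop (𝓝 0) := by
  classical
  have hf : ∀ i, BM (f i) := fun i => hK.bm _ (hfK i)
  by_contra hcon
  -- a subsequence with large correlations
  obtain ⟨δ, hδ, φ, hφ, hbig⟩ : ∃ δ : ℝ, 0 < δ ∧ ∃ φ : ℕ → ℕ, StrictMono φ ∧
      ∀ n, δ ≤ ‖∫ y, ∏ i, f i (iter T (t (φ n) i) y) ∂μ‖ := by
    rw [Metric.tendsto_nhds] at hcon
    push Not at hcon
    obtain ⟨δ, hδ, hfr⟩ := hcon
    obtain ⟨φ, hφ, h⟩ := extraction_of_frequently_atTop hfr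
    refine ⟨δ, hδ, φ, hφ, fun n => ?_⟩
    have := h n
    rw [dist_zero_right] at this
    exact this
  have hbig' : ∀ n, δ ≤ ‖∫ g, ∏ i, f i (iter T (t (φ n) i) (x g)) ∂ω‖ := by
    intro n
    have h1 : ∫ g, ∏ i, f i (iter T (t (φ n) i) (x g)) ∂ω =
        ∫ y, ∏ i, f i (iter T (t (φ n) i) y) ∂μ :=
      int_x hx (fun y => ∏ i, f i (iter T (t (φ n) i) y))
        (BM.prod _ fun i _ => (hf i).comp (measurable_iter T _)).1.aestronglyMeasurable
    rw [h1]; exact hbig n
  obtain ⟨E, δ', hδ', hE⟩ := S.trunc_all hT hx hK (fun n => t (φ n)) f hfK hs δ hδ hbig' Finset.univ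
  have hE' : ∀ n, ∫ g, ∏ i, S.tr (f i) (E i) (t (φ n) i) g ∂ω ≠ 0 := by
    intro n h
    have := hE n
    simp only [Finset.compl_univ, Finset.prod_empty, mul_one] at this
    rw [h, norm_zero] at this
    linarith
  choose v hv hv0 hvc using fun n => S.exists_rel hK (t (φ n)) f hfK E (hE' n)
  -- pigeonhole
  obtain ⟨w, hw⟩ := Finite.exists_infinite_fiber
    (fun n : ℕ => (⟨v n, hv n⟩ : {v // v ∈ Fintype.piFinset E}))
  have hw' : ∃ᶠ n in atTop, v n = w.1 := by
    rw [Nat.frequently_atTop_iff_infinite]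
    rw [← Set.infinite_coe_iff]
    refine @Infinite.of_injective _ _ hw (fun n => ⟨n.1, ?_⟩) ?_
    · have := n.2
      simp only [Set.mem_preimage, Set.mem_singleton_iff] at this
      simp only [Set.mem_ofPred_eq]
      exact congrArg Subtype.val this
    · intro a b hab
      simpa [Subtype.ext_iff] using hab
  obtain ⟨ψ, hψ, hψw⟩ := extraction_of_frequently_atTop hw'
  have hgap : Gaps (fun n => t (φ (ψ n))) := fun i j hij =>
    (ht i j hij).comp ((hφ.comp hψ).tendsto_atTop)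
  have hrel : ∀ n, ∑ i, (S.β ^ (t (φ (ψ n)) i)) (w.1 i) = 0 := by
    intro n
    have := hv0 (ψ n)
    rw [hψw n] at this
    exact this
  obtain ⟨N, M, hN, hqu⟩ := elim _ hgap S.β w.1 hrel l
  have hcl : coef ω x S.e (f l) (w.1 l) ≠ 0 := by
    have := hvc (ψ 0) l
    rw [hψw 0] at this
    exact this
  have hwl : w.1 l ≠ 0 := by
    intro h
    have h1 := S.coef_zero hx (f l) (hf l)
    rw [h0, norm_zero, norm_eq_zero] at h1
    rw [h] at hcl
    exact hcl h1
  exact hcl (S.coef_eq_zero_of_pow hT hx hK hmix N hN M _ hwl hqu _ (hfK l))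

end StaticC

end Vale.Agent.P102.SF
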